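import Mathlib

namespace Vale.Agent.P042

open Finset

/-- Membership in the self-similar set attached to a system `S` of pairs (modulus, residue). -/
inductive InA (S : Finset (ℕ × ℕ)) : ℕ → Prop
  | zero : InA S 0
  | step (p : ℕ × ℕ) (hp : p ∈ S) (j a : ℕ) (hj : j < p.1) (ha : InA S a) :
      InA S (p.2 + p.1 * j + p.1 ^ 2 * a)

/-- A system of pairs (squarefree modulus, residue), pairwise separated by a common divisor of the
two moduli modulo which the difference of the residues is not a square. -/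
structure GoodSystem (S : Finset (ℕ × ℕ)) : Prop where
  sqfree : ∀ p ∈ S, Squarefree p.1
  two_le : ∀ p ∈ S, 2 ≤ p.1
  lt : ∀ p ∈ S, p.2 < p.1
  zero_mem : ∃ m, (m, 0) ∈ S
  sep : ∀ p ∈ S, ∀ q ∈ S, p ≠ q → ∃ k : ℕ, k ∣ p.1 ∧ k ∣ q.1 ∧
    ∀ y : ℤ, ¬ (k : ℤ) ∣ y ^ 2 - ((p.2 : ℤ) - (q.2 : ℤ))

variable {S : Finset (ℕ × ℕ)}

theorem rep (hS : GoodSystem S) {a : ℕ} (ha : InA S a) :
    ∃ p ∈ S, ∃ j a' : ℕ, j < p.1 ∧ InA S a' ∧ a = p.2 + p.1 * j + p.1 ^ 2 * a' := by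
  cases ha with
  | zero =>
    obtain ⟨m, hm⟩ := hS.zero_mem
    have h2 := hS.two_le _ hm
    exact ⟨(m, 0), hm, 0, 0, by simpa using (by omega : 0 < m), InA.zero, by simp⟩
  | step p hp j a' hj ha' => exact ⟨p, hp, j, a', hj, ha', rfl⟩

theorem no_sq (hS : GoodSystem S) : ∀ n a b : ℕ, a + b ≤ n → InA S a → InA S b → a ≠ b →
    ∀ y : ℤ, (a : ℤ) - (b : ℤ) ≠ y ^ 2 := by
  intro n
  induction n with
  | zero =>
    intro a b h _ _ hab
    omega
  | succ n ih =>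
    intro a b h ha hb hab y hy
    obtain ⟨p, hp, j, a', hj, ha', rfl⟩ := rep hS ha
    obtain ⟨q, hq, i, b', hi, hb', rfl⟩ := rep hS hb
    by_cases hpq : p = q
    · subst hpq
      have h2 := hS.two_le _ hp
      have hm : (p.1 : ℤ) ≠ 0 := by
        have : p.1 ≠ 0 := by omega
        exact_mod_cast this
      by_cases hji : j = i
      · subst hji
        have hne : a' ≠ b' := by
          rintro rfl
          exact hab rfl
        have h1 : ((p.1 : ℤ)) ^ 2 * ((a' : ℤ) - b') = y ^ 2 := by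
          push_cast at hy
          linarith
        have h3 : (p.1 : ℤ) ∣ y := by
          have : (p.1 : ℤ) ^ 2 ∣ y ^ 2 := ⟨_, h1.symm⟩
          exact (Int.pow_dvd_pow_iff (by norm_num)).1 this
        obtain ⟨z, rfl⟩ := h3
        have h4 : (a' : ℤ) - b' = z ^ 2 := by
          have : (p.1 : ℤ) ^ 2 * ((a' : ℤ) - b') = (p.1 : ℤ) ^ 2 * z ^ 2 := by
            rw [h1]; ring
          exact mul_left_cancel₀ (pow_ne_zero 2 hm) this
        refine ih a' b' ?_ ha' hb' hne z h4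
        have h5 : 4 ≤ p.1 ^ 2 := by nlinarith
        have h6 : 4 * a' ≤ p.1 ^ 2 * a' := Nat.mul_le_mul_right _ h5
        have h7 : 4 * b' ≤ p.1 ^ 2 * b' := Nat.mul_le_mul_right _ h5
        omega
      · have hsq : Squarefree (p.1 : ℤ) := Int.squarefree_natCast.2 (hS.sqfree _ hp)
        have h1 : (p.1 : ℤ) * (((j : ℤ) - i) + (p.1 : ℤ) * ((a' : ℤ) - b')) = y ^ 2 := by
          push_cast at hy
          linarith
        have h3 : (p.1 : ℤ) ∣ y := (hsq.dvd_pow_iff_dvd (by norm_num)).1 ⟨_, h1.symm⟩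
        obtain ⟨z, rfl⟩ := h3
        have h4 : ((j : ℤ) - i) + (p.1 : ℤ) * ((a' : ℤ) - b') = (p.1 : ℤ) * z ^ 2 := by
          have : (p.1 : ℤ) * (((j : ℤ) - i) + (p.1 : ℤ) * ((a' : ℤ) - b'))
              = (p.1 : ℤ) * ((p.1 : ℤ) * z ^ 2) := by
            rw [h1]; ring
          exact mul_left_cancel₀ hm this
        have h5 : (p.1 : ℤ) ∣ (j : ℤ) - i := ⟨z ^ 2 - ((a' : ℤ) - b'), by linarith⟩
        have h6 : |(j : ℤ) - i| < (p.1 : ℤ) := by
          rw [abs_lt]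
          constructor <;> omega
        have h7 := Int.eq_zero_of_abs_lt_dvd h5 h6
        apply hji
        omega
    · obtain ⟨k, hkp, hkq, hk⟩ := hS.sep p hp q hq hpq
      apply hk y
      have hkp' : (k : ℤ) ∣ (p.1 : ℤ) := Int.natCast_dvd_natCast.2 hkp
      have hkq' : (k : ℤ) ∣ (q.1 : ℤ) := Int.natCast_dvd_natCast.2 hkq
      have h1 : y ^ 2 - ((p.2 : ℤ) - (q.2 : ℤ))
          = (p.1 : ℤ) * ((j : ℤ) + (p.1 : ℤ) * a') - (q.1 : ℤ) * ((i : ℤ) + (q.1 : ℤ) * b') := by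
        push_cast at hy
        linarith
      rw [h1]
      exact dvd_sub (Dvd.dvd.mul_right hkp' _) (Dvd.dvd.mul_right hkq' _)

open Classical in
/-- number of elements of the self-similar set below `N` -/
noncomputable def cnt (S : Finset (ℕ × ℕ)) (N : ℕ) : ℕ := ((range N).filter (InA S)).card

theorem cnt_rec (hS : GoodSystem S) (N : ℕ) :
    ∑ p ∈ S, p.1 * cnt S (N / p.1 ^ 2) ≤ cnt S N := by
  classical
  have hcard : (S.sigma (fun p => range p.1 ×ˢ (range (N / p.1 ^ 2)).filter (InA S))).card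
      = ∑ p ∈ S, p.1 * cnt S (N / p.1 ^ 2) := by
    rw [card_sigma]
    refine sum_congr rfl (fun p _ => ?_)
    rw [card_product, card_range]
    rfl
  rw [← hcard]
  unfold cnt
  refine card_le_card_of_injOn
    (fun x : (Σ _ : ℕ × ℕ, ℕ × ℕ) => x.1.2 + x.1.1 * x.2.1 + x.1.1 ^ 2 * x.2.2) ?_ ?_
  · rintro ⟨p, j, a⟩ hx
    simp only [coe_sigma, Set.mem_sigma_iff, mem_coe, mem_product, mem_range, mem_filter] at hx
    obtain ⟨hp, hj, ha, hA⟩ := hx
    simp only [coe_filter, mem_range, Set.mem_ofPred_eq]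
    refine ⟨?_, InA.step p hp j a hj hA⟩
    have hlt := hS.lt _ hp
    have h1 : p.1 ^ 2 * (a + 1) ≤ N := by
      have : a + 1 ≤ N / p.1 ^ 2 := ha
      calc p.1 ^ 2 * (a + 1) ≤ p.1 ^ 2 * (N / p.1 ^ 2) := Nat.mul_le_mul_left _ this
        _ ≤ N := Nat.mul_div_le _ _
    have h2 : p.2 + p.1 * j < p.1 ^ 2 := by
      have : p.1 * (j + 1) ≤ p.1 * p.1 := Nat.mul_le_mul_left _ hj
      nlinarith
    nlinarith
  · rintro ⟨p, j, a⟩ hx ⟨q, i, b⟩ hy hxy
    simp only [coe_sigma, Set.mem_sigma_iff, mem_coe, mem_product, mem_range, mem_filter] at hx hy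
    obtain ⟨hp, hj, -, -⟩ := hx
    obtain ⟨hq, hi, -, -⟩ := hy
    simp only at hxy
    have hpq : p = q := by
      by_contra hne
      obtain ⟨k, hkp, hkq, hk⟩ := hS.sep p hp q hq hne
      apply hk 0
      have hkp' : (k : ℤ) ∣ (p.1 : ℤ) := Int.natCast_dvd_natCast.2 hkp
      have hkq' : (k : ℤ) ∣ (q.1 : ℤ) := Int.natCast_dvd_natCast.2 hkq
      have hxy' : (p.2 : ℤ) + p.1 * j + (p.1 : ℤ) ^ 2 * a = (q.2 : ℤ) + q.1 * i + (q.1 : ℤ) ^ 2 * b := by
        exact_mod_cast hxy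
      have h1 : (0 : ℤ) ^ 2 - ((p.2 : ℤ) - (q.2 : ℤ))
          = (p.1 : ℤ) * ((j : ℤ) + (p.1 : ℤ) * a) - (q.1 : ℤ) * ((i : ℤ) + (q.1 : ℤ) * b) := by
        linarith
      rw [h1]
      exact dvd_sub (Dvd.dvd.mul_right hkp' _) (Dvd.dvd.mul_right hkq' _)
    subst hpq
    have h2 := hS.two_le _ hp
    have hpos : 0 < p.1 := by omega
    have h3 : j + p.1 * a = i + p.1 * b := by
      have : p.1 * (j + p.1 * a) = p.1 * (i + p.1 * b) := by nlinarith
      exact Nat.eq_of_mul_eq_mul_left hpos this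
    have h4 : j = i := by
      have e1 : (j + p.1 * a) % p.1 = j := by
        rw [Nat.add_mul_mod_self_left, Nat.mod_eq_of_lt hj]
      have e2 : (i + p.1 * b) % p.1 = i := by
        rw [Nat.add_mul_mod_self_left, Nat.mod_eq_of_lt hi]
      rw [← e1, ← e2, h3]
    subst h4
    have h5 : a = b := by
      have : p.1 * a = p.1 * b := by omega
      exact Nat.eq_of_mul_eq_mul_left hpos this
    subst h5
    rfl

theorem cnt_pos (S : Finset (ℕ × ℕ)) {N : ℕ} (hN : 1 ≤ N) : 1 ≤ cnt S N := by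
  classical
  unfold cnt
  exact card_pos.2 ⟨0, by simp only [mem_filter, mem_range]; exact ⟨by omega, InA.zero⟩⟩

theorem growth (hS : GoodSystem S) (γ : ℝ) (hγ : 0 ≤ γ)
    (hsum : 1 ≤ ∑ p ∈ S, (p.1 : ℝ) ^ (1 - 2 * γ)) (K : ℕ) (hK : ∀ p ∈ S, p.1 ^ 2 ≤ K) :
    ∀ N : ℕ, 1 ≤ N → ((N : ℝ) + 1) ^ γ ≤ (K : ℝ) ^ γ * (cnt S N : ℝ) := by
  intro N
  induction N using Nat.strong_induction_on with
  | _ N ih =>
    intro hN
    have hKγ : 0 ≤ (K : ℝ) ^ γ := Real.rpow_nonneg (Nat.cast_nonneg _) _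
    by_cases hNK : N < K
    · have h1 : ((N : ℝ) + 1) ^ γ ≤ (K : ℝ) ^ γ := by
        apply Real.rpow_le_rpow (by positivity) _ hγ
        exact_mod_cast hNK
      have h2 : (1 : ℝ) ≤ (cnt S N : ℝ) := by exact_mod_cast cnt_pos S hN
      nlinarith
    · have hNK := not_lt.1 hNK
      have hterm : ∀ p ∈ S, ((N : ℝ) + 1) ^ γ * (p.1 : ℝ) ^ (1 - 2 * γ)
          ≤ (K : ℝ) ^ γ * ((p.1 * cnt S (N / p.1 ^ 2) : ℕ) : ℝ) := by
        intro p hp
        have h2 := hS.two_le _ hp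
        have hm0 : (0 : ℝ) < (p.1 : ℝ) := by
          have : 0 < p.1 := by omega
          exact_mod_cast this
        have hsqpos : 0 < p.1 ^ 2 := by positivity
        have hle : p.1 ^ 2 ≤ N := le_trans (hK p hp) hNK
        have hN1 : 1 ≤ N / p.1 ^ 2 := (Nat.one_le_div_iff hsqpos).2 hle
        have hN2 : N / p.1 ^ 2 < N := Nat.div_lt_self (by omega) (by nlinarith)
        have hih := ih _ hN2 hN1
        have h3 : ((N : ℝ) + 1) / ((p.1 : ℝ) ^ 2) ≤ ((N / p.1 ^ 2 : ℕ) : ℝ) + 1 := by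
          rw [div_le_iff₀ (by positivity)]
          have : N + 1 ≤ (N / p.1 ^ 2 + 1) * p.1 ^ 2 := by
            have := Nat.lt_succ_iff.1 (Nat.lt_succ_of_le (le_refl N))
            have h4 : N < p.1 ^ 2 * (N / p.1 ^ 2 + 1) := Nat.lt_mul_div_succ N hsqpos
            nlinarith
          exact_mod_cast this
        have h4 : (((N : ℝ) + 1) / ((p.1 : ℝ) ^ 2)) ^ γ ≤ (((N / p.1 ^ 2 : ℕ) : ℝ) + 1) ^ γ :=
          Real.rpow_le_rpow (by positivity) h3 hγ
        have h5 : (((N : ℝ) + 1) / ((p.1 : ℝ) ^ 2)) ^ γ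
            = ((N : ℝ) + 1) ^ γ * (p.1 : ℝ) ^ (-(2 * γ)) := by
          rw [Real.div_rpow (by positivity) (by positivity), Real.rpow_neg hm0.le, div_eq_mul_inv]
          congr 2
          rw [← Real.rpow_natCast, ← Real.rpow_mul hm0.le]
          norm_num
        have h6 : (p.1 : ℝ) ^ (1 - 2 * γ) = (p.1 : ℝ) * (p.1 : ℝ) ^ (-(2 * γ)) := by
          rw [sub_eq_add_neg, Real.rpow_add hm0, Real.rpow_one]
        rw [h6]
        push_cast
        calc ((N : ℝ) + 1) ^ γ * ((p.1 : ℝ) * (p.1 : ℝ) ^ (-(2 * γ)))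
            = (p.1 : ℝ) * (((N : ℝ) + 1) ^ γ * (p.1 : ℝ) ^ (-(2 * γ))) := by ring
          _ ≤ (p.1 : ℝ) * ((K : ℝ) ^ γ * (cnt S (N / p.1 ^ 2) : ℝ)) := by
              apply mul_le_mul_of_nonneg_left _ hm0.le
              rw [← h5]
              exact le_trans h4 hih
          _ = (K : ℝ) ^ γ * ((p.1 : ℝ) * (cnt S (N / p.1 ^ 2) : ℝ)) := by ring
      have hNγ : 0 ≤ ((N : ℝ) + 1) ^ γ := Real.rpow_nonneg (by positivity) _
      calc ((N : ℝ) + 1) ^ γ ≤ ((N : ℝ) + 1) ^ γ * ∑ p ∈ S, (p.1 : ℝ) ^ (1 - 2 * γ) := by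
            nlinarith
        _ = ∑ p ∈ S, ((N : ℝ) + 1) ^ γ * (p.1 : ℝ) ^ (1 - 2 * γ) := by rw [mul_sum]
        _ ≤ ∑ p ∈ S, (K : ℝ) ^ γ * ((p.1 * cnt S (N / p.1 ^ 2) : ℕ) : ℝ) := sum_le_sum hterm
        _ = (K : ℝ) ^ γ * ((∑ p ∈ S, p.1 * cnt S (N / p.1 ^ 2) : ℕ) : ℝ) := by
            rw [Nat.cast_sum, mul_sum]
        _ ≤ (K : ℝ) ^ γ * (cnt S N : ℝ) := by
            apply mul_le_mul_of_nonneg_left _ hKγ
            exact_mod_cast cnt_rec hS N

/-- Main general statement: a good system with `∑ m^(1-2γ) ≥ 1` yields, for every `N`, a subset of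
`[1,N]` of size at least `c N^γ` with no two elements differing by a nonzero perfect square. -/
theorem exists_large_set (hS : GoodSystem S) (γ : ℝ) (hγ0 : 0 < γ)
    (hsum : 1 ≤ ∑ p ∈ S, (p.1 : ℝ) ^ (1 - 2 * γ)) :
    ∃ c : ℝ, 0 < c ∧ ∀ N : ℕ, ∃ A : Finset ℕ, A ⊆ Icc 1 N ∧
      (∀ a ∈ A, ∀ b ∈ A, a ≠ b → ∀ y : ℤ, (a : ℤ) - (b : ℤ) ≠ y ^ 2) ∧
      c * (N : ℝ) ^ γ ≤ (A.card : ℝ) := by
  classical
  have hγ : 0 ≤ γ := hγ0.le
  set K : ℕ := S.sup (fun p => p.1 ^ 2) + 1 with hKdef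
  have hK : ∀ p ∈ S, p.1 ^ 2 ≤ K := by
    intro p hp
    have : p.1 ^ 2 ≤ S.sup (fun p => p.1 ^ 2) := le_sup (f := fun p : ℕ × ℕ => p.1 ^ 2) hp
    omega
  have hKpos : (0 : ℝ) < (K : ℝ) := by
    have : 0 < K := by omega
    exact_mod_cast this
  have hKγ : 0 < (K : ℝ) ^ γ := Real.rpow_pos_of_pos hKpos _
  refine ⟨((K : ℝ) ^ γ)⁻¹, inv_pos.2 hKγ, fun N => ?_⟩
  refine ⟨((range N).filter (InA S)).image (fun a => a + 1), ?_, ?_, ?_⟩
  · intro x hx
    simp only [mem_image, mem_filter, mem_range] at hx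
    obtain ⟨a, ⟨ha, -⟩, rfl⟩ := hx
    simp only [mem_Icc]
    omega
  · intro x hx z hz hxz y
    simp only [mem_image, mem_filter, mem_range] at hx hz
    obtain ⟨a, ⟨-, ha⟩, rfl⟩ := hx
    obtain ⟨b, ⟨-, hb⟩, rfl⟩ := hz
    have hab : a ≠ b := by
      rintro rfl
      exact hxz rfl
    have := no_sq hS (a + b) a b le_rfl ha hb hab y
    push_cast
    intro h
    apply this
    linarith
  · rw [card_image_of_injective _ (fun a b h => by simpa using h)]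
    rcases Nat.eq_zero_or_pos N with rfl | hN
    · simp [Real.zero_rpow hγ0.ne']
    · have h1 := growth hS γ hγ hsum K hK N hN
      have h2 : (N : ℝ) ^ γ ≤ ((N : ℝ) + 1) ^ γ :=
        Real.rpow_le_rpow (by positivity) (by linarith) hγ
      rw [inv_mul_le_iff₀ hKγ]
      exact le_trans h2 h1

end Vale.Agent.P042
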